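import Vale.Agent.P092.H103.QH1
import Mathlib.Topology.Instances.Matrix
import Mathlib.Analysis.Normed.Field.Basic
import Mathlib.Analysis.Normed.Module.Basic
import Mathlib.Topology.Algebra.Constructions
import Mathlib.Topology.Connected.Basic
import Mathlib.Topology.Algebra.Group.Basic
import Mathlib.Topology.MetricSpace.Pseudo.Defs
import Mathlib.Topology.Algebra.Algebra

/-!
P092, block CLASS-H, U5 (helper866): the groups generated by the transvections of a form over a
quaternion division algebra over an archimedean field are connected.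
-/

set_option linter.all false

open Matrix Topology Filter

namespace Vale.Agent.P092.H866.QL

open Vale.Agent.P092.H103.QH

/-- A subgroup generated by connected sets through `1` is connected. -/
theorem preconnected_closure {E : Type*} [Group E] [TopologicalSpace E] [IsTopologicalGroup E]
    {S : Set E} (h : ∀ g ∈ S, ∃ T : Set E, T ⊆ (Subgroup.closure S : Set E) ∧ 1 ∈ T ∧ g ∈ T ∧
      IsPreconnected T) : PreconnectedSpace (Subgroup.closure S) := by
  have key : IsPreconnected ((Subgroup.closure S : Subgroup E) : Set E) := by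
    refine isPreconnected_of_forall 1 ?_
    intro g hg
    have hg' : g ∈ Subgroup.closure S := hg
    induction hg' using Subgroup.closure_induction with
    | mem x hx => exact h x hx
    | one => exact ⟨{1}, by simp [Subgroup.one_mem], rfl, rfl, isPreconnected_singleton⟩
    | mul x y hx hy ihx ihy =>
      obtain ⟨T, a1, a2, a3, a4⟩ := ihx hx
      obtain ⟨T', b1, b2, b3, b4⟩ := ihy hy
      refine ⟨(fun p : E × E => p.1 * p.2) '' (T ×ˢ T'), ?_, ⟨(1, 1), ⟨a2, b2⟩, one_mul 1⟩,
        ⟨(x, y), ⟨a3, b3⟩, rfl⟩, (a4.prod b4).image _ continuous_mul.continuousOn⟩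
      rintro _ ⟨⟨p, q⟩, ⟨hp, hq⟩, rfl⟩
      exact (Subgroup.closure S).mul_mem (a1 hp) (b1 hq)
    | inv x hx ih =>
      obtain ⟨T, a1, a2, a3, a4⟩ := ih hx
      refine ⟨(fun p : E => p⁻¹) '' T, ?_, ⟨1, a2, inv_one⟩, ⟨x, a3, rfl⟩,
        a4.image _ continuous_inv.continuousOn⟩
      rintro _ ⟨p, hp, rfl⟩
      exact (Subgroup.closure S).inv_mem (a1 hp)
  exact isPreconnected_iff_preconnectedSpace.1 key

variable {k : Type*} [NontriviallyNormedField k]
  {n D : Type*} [Fintype n] [DecidableEq n] [NormedDivisionRing D] [NormedAlgebra k D]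
  [StarRing D] {ε : D} {J : Matrix n n D}

theorem continuous_tv {u : n → D} (hu : hf J u u = 0) : Continuous fun c : D => tv J u c := by
  rw [Units.continuous_iff]
  have h1 : Continuous fun c : D => tvm J u c := by
    unfold tvm
    refine continuous_const.add ?_
    refine continuous_matrix fun i j => ?_
    simp only [vecMulVec_apply, Pi.smul_apply, smul_eq_mul]
    fun_prop
  constructor
  · have e : (Units.val ∘ fun c : D => tv J u c) = fun c => tvm J u c := by
      funext c
      exact tv_val hu c
    rw [e]
    exact h1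
  · have e : (fun c : D => ((tv J u c)⁻¹).1) = fun c => tvm J u (-c) := by
      funext c
      rw [← tv_neg hu, tv_val hu]
    rw [e]
    exact h1.comp continuous_neg

/-- **the groups generated by transvections are connected over the archimedean fields** -/
theorem preconnected_GT (st : ∀ t : k, star (algebraMap k D t) = algebraMap k D t)
    (he : ε = 1 ∨ ε = -1) (hι : ∃ ι : ℝ →+* k, Continuous ι) : PreconnectedSpace (GT ε J) := by
  obtain ⟨ι, hι⟩ := hι
  refine preconnected_closure ?_
  rintro _ ⟨u, c, hu, hc, rfl⟩
  refine ⟨Set.range fun t : ℝ => tv J u (algebraMap k D (ι t) * c), ?_, ⟨0, ?_⟩, ⟨1, ?_⟩, ?_⟩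
  · rintro _ ⟨t, rfl⟩
    exact tv_mem_GT hu (hc.smul he ⟨st _, fun x => Algebra.commutes _ x⟩)
  · show tv J u (algebraMap k D (ι 0) * c) = 1
    rw [map_zero, map_zero, zero_mul, tv_zero]
  · show tv J u (algebraMap k D (ι 1) * c) = tv J u c
    rw [map_one, map_one, one_mul]
  · refine isPreconnected_range ((continuous_tv hu).comp ?_)
    exact ((continuous_algebraMap k D).comp hι).mul continuous_const

end Vale.Agent.P092.H866.QL
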