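import Vale.Agent.P092.H866.DH.L2

/-!
P092, block CLASS-H, DU6 (helper866), part 3: the group generated by the transvections of an
`ε`-hermitian form over a quaternion division algebra is open in the group of the isometries and
closed in the matrices.
-/

set_option linter.all false

open Matrix Topology Filter

namespace Vale.Agent.P092.H866.QL

open Vale.Agent.P092.H103.QH

section lin

variable {n : Type*} [Fintype n] [DecidableEq n] {D : Type*} [DivisionRing D] [StarRing D]
  {ε : D} {J K : Matrix n n D} {k : Type*} [Field k] [Algebra k D]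

theorem star_smul' (st : ∀ t : k, star (algebraMap k D t) = algebraMap k D t) (t : k) (x : D) :
    star (t • x) = t • star x := by
  rw [Algebra.smul_def, star_mul, st, ← Algebra.commutes, ← Algebra.smul_def]

theorem adj_smul (st : ∀ t : k, star (algebraMap k D t) = algebraMap k D t) (t : k)
    (A : Matrix n n D) : adj J K (t • A) = t • adj J K A := by
  unfold adj
  rw [Matrix.mul_smul, Matrix.smul_mul]
  ext i j
  rw [conjTranspose_apply, Matrix.smul_apply, Matrix.smul_apply, star_smul' st,
    conjTranspose_apply]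

/-- the adjoint as a linear map -/
def adjL (st : ∀ t : k, star (algebraMap k D t) = algebraMap k D t) (J K : Matrix n n D) :
    Matrix n n D →ₗ[k] Matrix n n D where
  toFun := adj J K
  map_add' := adj_add
  map_smul' := adj_smul st

theorem adjL_apply (st : ∀ t : k, star (algebraMap k D t) = algebraMap k D t)
    (A : Matrix n n D) : adjL st J K A = adj J K A := rfl

theorem cs_alg (st : ∀ t : k, star (algebraMap k D t) = algebraMap k D t) (t : k) :
    Cs (algebraMap k D t) := ⟨st t, fun x => Algebra.commutes t x⟩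

theorem qt_of (st : ∀ t : k, star (algebraMap k D t) = algebraMap k D t)
    (htr : ∀ x : D, ∃ t : k, x + star x = algebraMap k D t) (h2 : (2 : D) ≠ 0)
    (hnc : ∃ x y : D, x * y ≠ y * x) : Qt D where
  tr x := by
    obtain ⟨t, ht⟩ := htr x
    rw [ht]
    exact cs_alg st t
  two := h2
  nc := hnc

/-- the span of the transvections -/
def Tr (k : Type*) [Field k] [Algebra k D] (ε : D) (J : Matrix n n D) :
    Submodule k (Matrix n n D) :=
  Submodule.span k {A | ∃ u c, hf J u u = 0 ∧ CC ε c ∧ A = X J u c}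

theorem skew_Tr (st : ∀ t : k, star (algebraMap k D t) = algebraMap k D t)
    (htr : ∀ x : D, ∃ t : k, x + star x = algebraMap k D t) (hQ : Qt D) (hF : Frm ε J)
    (h3 : Dm3 ε J) {r : k} (hr0 : r ≠ 0) (hr1 : r * r ≠ 1) (hK : J * K = 1)
    (A : Matrix n n D) : A - adj J K A ∈ Tr k ε J := by
  have hP : ∀ u c, hf J u u = 0 → CC ε c → X J u c ∈ Tr k ε J := fun u c hu hc =>
    Submodule.subset_span ⟨u, c, hu, hc, rfl⟩
  refine skew_mem hF hK (fun u v => ?_) A
  rcases hF.eps with he | he
  · obtain ⟨e, he0, hee⟩ := hF.iso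
    obtain ⟨f, hff, hef⟩ := hF.exists_hyp he0 hee
    refine Sp.Y_mem ⟨hF, st, hQ.two, hP, hee, hff, hef⟩ hQ htr (fun he' => ?_) hr0 hr1 u v
    exfalso
    have h1 : (2 : D) = 0 := by
      rw [← one_add_one_eq_two]
      nth_rewrite 1 [← he]
      rw [he', neg_add_cancel]
    exact hQ.two h1
  · obtain ⟨e, f, y, hee, hff, hef, hye, hyf, hyy⟩ := h3 he
    exact Sp.Y_mem ⟨hF, st, hQ.two, hP, hee, hff, hef⟩ hQ htr
      (fun _ => ⟨y, hye, hyf, hyy⟩) hr0 hr1 u v

end lin

section top

variable {k : Type*} [NontriviallyNormedField k] [ProperSpace k]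
  {n D : Type*} [Fintype n] [DecidableEq n] [NormedDivisionRing D] [NormedAlgebra k D]
  [FiniteDimensional k D] [StarRing D] {ε : D} {J K : Matrix n n D}

theorem continuous_adj (st : ∀ t : k, star (algebraMap k D t) = algebraMap k D t) :
    Continuous (adj J K : Matrix n n D → Matrix n n D) :=
  (adjL st J K).continuous_of_finiteDimensional

/-- the isometries are closed in the matrices -/
theorem isClosedEmbedding_FG (st : ∀ t : k, star (algebraMap k D t) = algebraMap k D t)
    (hF : Frm ε J) : IsClosedEmbedding fun g : FG J => g.1.1 := by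
  obtain ⟨K, hK, hK'⟩ := exists_inv hF
  have hc : Continuous fun g : FG J => g.1.1 := Units.continuous_val.comp continuous_subtype_val
  have hca : Continuous (adj J K : Matrix n n D → Matrix n n D) := continuous_adj st
  refine ⟨⟨?_, fun a b h => Subtype.ext (Units.ext h)⟩, ?_⟩
  · have hF' : Continuous fun M : Matrix n n D => (M, MulOpposite.op (adj J K M)) :=
      continuous_id.prodMk (MulOpposite.continuous_op.comp hca)
    have hh : IsInducing ((fun M : Matrix n n D => (M, MulOpposite.op (adj J K M))) ∘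
        fun g : FG J => g.1.1) := by
      have e : ((fun M : Matrix n n D => (M, MulOpposite.op (adj J K M))) ∘
          fun g : FG J => g.1.1) = (Units.embedProduct (Matrix n n D)) ∘ Subtype.val := by
        funext g
        show (g.1.1, MulOpposite.op (adj J K g.1.1)) = (g.1.1, MulOpposite.op (g.1⁻¹).1)
        have h1 : g.1.1 * adj J K g.1.1 = 1 := (mem_FG_adj hF hK).1 g.2
        have h2 : adj J K g.1.1 = (g.1⁻¹).1 := by
          calc adj J K g.1.1 = (g.1⁻¹).1 * g.1.1 * adj J K g.1.1 := by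
                rw [Units.inv_mul, Matrix.one_mul]
            _ = (g.1⁻¹).1 := by rw [Matrix.mul_assoc, h1, Matrix.mul_one]
        rw [h2]
      rw [e]
      exact Units.isInducing_embedProduct.comp IsInducing.subtypeVal
    exact hh.of_comp hc hF'
  · have e : Set.range (fun g : FG J => g.1.1) = {M | M * adj J K M = 1} := by
      ext M
      constructor
      · rintro ⟨g, rfl⟩
        exact (mem_FG_adj hF hK).1 g.2
      · intro hM
        have hM' : M * adj J K M = 1 := hM
        have h0 : H465.DA.nmk k n D M ≠ 0 := by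
          intro h0
          have h1 := H465.DA.nmk_mul k n D M (adj J K M)
          rw [hM', H465.DA.nmk_one, h0, zero_mul] at h1
          exact one_ne_zero h1
        obtain ⟨u, rfl⟩ := H465.DA.isUnit_of_nmk k n D h0
        exact ⟨⟨u, (mem_FG_adj hF hK).2 hM'⟩, rfl⟩
    rw [e]
    exact isClosed_eq (continuous_id.mul hca) continuous_const

theorem exists_list_prod (st : ∀ t : k, star (algebraMap k D t) = algebraMap k D t)
    (hF : Frm ε J) {r : ℕ} {a : Fin r → Matrix n n D}
    (ha : ∀ i, ∃ u c, hf J u u = 0 ∧ CC ε c ∧ a i = X J u c) (x : Fin r → k)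
    (l : List (Fin r)) :
    ∃ s ∈ GT ε J, s.1 = (l.map fun i => (1 : Matrix n n D) + x i • a i).prod := by
  induction l with
  | nil => exact ⟨1, Subgroup.one_mem _, rfl⟩
  | cons i l ih =>
    obtain ⟨s, hs, hs1⟩ := ih
    obtain ⟨u, c, hu, hc, hi⟩ := ha i
    have hc' : CC ε (algebraMap k D (x i) * c) := hc.smul hF.eps (cs_alg st (x i))
    refine ⟨tv J u (algebraMap k D (x i) * c) * s, Subgroup.mul_mem _ (tv_mem_GT hu hc') hs, ?_⟩
    rw [List.map_cons, List.prod_cons, ← hs1, Units.val_mul, tv_val hu, tvm_eq, hi]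
    congr 2
    refine ext_vm fun z => ?_
    rw [vecMul_smul, X, vecMul_R, vecMul_R, ← smul_smul (algebraMap k D (x i)) c u,
      algebraMap_smul, smul_comm]

/-- the neighbourhood of `1` -/
theorem near_one (st : ∀ t : k, star (algebraMap k D t) = algebraMap k D t)
    (hF : Frm ε J) (h2 : (2 : D) ≠ 0) (hK : J * K = 1)
    (hT : ∀ A : Matrix n n D, A - adj J K A ∈ Tr k ε J)
    {U : Set (Matrix n n D)} (hU : U ∈ 𝓝 0) :
    ∀ᶠ M : Matrix n n D in 𝓝 1, ∃ s ∈ GT ε J, ∃ S ∈ U, adj J K S = S ∧ M = s.1 * (1 + S) := by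
  obtain ⟨a, ha, hspan, -⟩ := Submodule.exists_fun_fin_finrank_span_eq k
    {A : Matrix n n D | ∃ u c, hf J u u = 0 ∧ CC ε c ∧ A = X J u c}
  haveI : CompleteSpace k := inferInstance
  haveI h0 : FiniteDimensional k (Subalgebra.toSubmodule (H465.DA.MA k n D)) :=
    (H465.DA.eMA k n D).toLinearEquiv.finiteDimensional
  haveI h0' := H465.DA.complete_sub (k := k) (𝔸 := (n → D) →L[k] (n → D)) (H465.DA.MA k n D)
  set bs := Module.finBasis k (Matrix n n D) with hbs
  set ψ : (Fin (Module.finrank k (Matrix n n D)) → k) →ₗ[k] Matrix n n D :=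
    (LinearMap.id + adjL st J K).comp bs.equivFun.symm.toLinearMap with hψ
  have hψ1 : ∀ A, ψ (bs.equivFun A) = A + adj J K A := by
    intro A
    show bs.equivFun.symm (bs.equivFun A) + adj J K (bs.equivFun.symm (bs.equivFun A)) = _
    rw [LinearEquiv.symm_apply_apply]
  have hψ2 : ∀ t, adj J K (ψ t) = ψ t := by
    intro t
    obtain ⟨A, rfl⟩ := bs.equivFun.surjective t
    rw [hψ1, adj_add, adj_adj hF hK, add_comm]
  have hψc : Continuous ψ := ψ.continuous_of_finiteDimensional
  have h2k : (2 : k) ≠ 0 := by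
    intro h2'
    apply h2
    have : algebraMap k D 2 = 2 := map_ofNat _ 2
    rw [← this, h2', map_zero]
  have h1 : ∀ M : Matrix n n D, ∃ (x : Fin _ → k) (t : Fin _ → k),
      M = ∑ i, x i • a i + ψ t := by
    intro M
    have hm := hT ((2⁻¹ : k) • M)
    rw [Tr, ← hspan, Submodule.mem_span_range_iff_exists_fun] at hm
    obtain ⟨x, hx⟩ := hm
    refine ⟨x, bs.equivFun ((2⁻¹ : k) • M), ?_⟩
    rw [hx, hψ1, sub_add_add_cancel, ← add_smul, ← two_mul, mul_inv_cancel₀ h2k, one_smul]
  have hU' : ψ ⁻¹' U ∈ 𝓝 0 := by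
    refine hψc.continuousAt ?_
    rw [map_zero]
    exact hU
  refine (near_alg (k := k) (𝔸 := H465.DA.MA k n D) (H465.DA.eMA k n D)
    (H465.DA.continuous_eMA k n D) a ψ h1 hU').mono fun M hM => ?_
  obtain ⟨z, hz, hM⟩ := hM
  obtain ⟨s, hs, hs1⟩ := exists_list_prod (k := k) st hF ha z.1 (List.finRange _)
  exact ⟨s, hs, ψ z.2, hz, hψ2 _, by rw [hM, hs1]⟩

/-- **`GT` is open in the group of the isometries** -/
theorem isOpen_GT' (st : ∀ t : k, star (algebraMap k D t) = algebraMap k D t)
    (hF : Frm ε J) (h2 : (2 : D) ≠ 0) (hK : J * K = 1)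
    (hT : ∀ A : Matrix n n D, A - adj J K A ∈ Tr k ε J) :
    IsOpen (((GT ε J).subgroupOf (FG J) : Subgroup (FG J)) : Set (FG J)) := by
  refine Subgroup.isOpen_of_mem_nhds _ (g := 1) ?_
  have hc : Tendsto (fun g : FG J => g.1.1) (𝓝 1) (𝓝 1) :=
    (isClosedEmbedding_FG (k := k) st hF).continuous.tendsto 1
  have hm : (2 : k) ≠ 0 := by
    intro h2'
    apply h2
    have : algebraMap k D 2 = 2 := map_ofNat _ 2
    rw [← this, h2', map_zero]
  have hU : {S : Matrix n n D | H465.DA.nmk k n D ((2 : k) • 1 + S) ≠ 0} ∈ 𝓝 (0 : Matrix n n D) := by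
    have hcont : Continuous fun S : Matrix n n D => H465.DA.nmk k n D ((2 : k) • 1 + S) :=
      (H465.DA.continuous_nmk k n D).comp (continuous_const.add continuous_id)
    refine (hcont.isOpen_preimage {0}ᶜ isOpen_compl_singleton).mem_nhds ?_
    show H465.DA.nmk k n D ((2 : k) • 1 + 0) ≠ 0
    rw [add_zero, H465.DA.nmk, map_smul, map_one, det_smul, det_one, mul_one]
    exact pow_ne_zero _ hm
  refine mem_of_superset (hc.eventually (near_one st hF h2 hK hT hU)) fun g hg => ?_
  obtain ⟨s, hs, S, hS, hSs, hg⟩ := hg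
  -- `1 + S` is an isometry
  have h3 : s⁻¹ * g.1 ∈ FG J := mul_mem (inv_mem (GT_le hF hs)) g.2
  have h4 : (s⁻¹ * g.1).1 = 1 + S := by
    rw [Units.val_mul, hg, ← Matrix.mul_assoc, Units.inv_mul, Matrix.one_mul]
  rw [mem_FG_adj hF hK, h4, adj_add, adj_one hF hK, hSs] at h3
  have h5 : ((2 : k) • 1 + S) * S = 0 := by
    have e : (1 + S) * (1 + S) = 1 + ((2 : k) • 1 + S) * S := by
      rw [Matrix.add_mul, Matrix.mul_add, Matrix.add_mul, Matrix.smul_mul, two_smul]
      simp only [Matrix.one_mul, Matrix.mul_one, Matrix.mul_add]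
      abel
    rw [e] at h3
    exact add_eq_left.1 h3
  obtain ⟨v, hv⟩ := H465.DA.isUnit_of_nmk k n D (show H465.DA.nmk k n D ((2 : k) • 1 + S) ≠ 0 from hS)
  have h6 : S = 0 := by
    rw [← hv] at h5
    have h7 := congrArg (fun M => (v⁻¹).1 * M) h5
    simp only [← Matrix.mul_assoc, Units.inv_mul, Matrix.one_mul, Matrix.mul_zero] at h7
    exact h7
  rw [h6, add_zero, Matrix.mul_one] at hg
  have h7 : g.1 = s := Units.ext hg
  show g.1 ∈ GT ε J
  rw [h7]
  exact hs

/-- **`GT` is open in the group of the isometries** -/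
theorem isOpen_GT (st : ∀ t : k, star (algebraMap k D t) = algebraMap k D t)
    (htr : ∀ x : D, ∃ t : k, x + star x = algebraMap k D t) (hQ : Qt D)
    (hF : Frm ε J) (h3 : Dm3 ε J) :
    IsOpen (((GT ε J).subgroupOf (FG J) : Subgroup (FG J)) : Set (FG J)) := by
  obtain ⟨K, hK, -⟩ := exists_inv hF
  obtain ⟨r, hr0, hr1⟩ := H465.DA.exists_sq_ne k
  exact isOpen_GT' st hF hQ.two hK
    (skew_Tr st htr hQ hF h3 hr0 (by rwa [← sq]) hK)

theorem isClosed_GT (st : ∀ t : k, star (algebraMap k D t) = algebraMap k D t)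
    (htr : ∀ x : D, ∃ t : k, x + star x = algebraMap k D t) (hQ : Qt D)
    (hF : Frm ε J) (h3 : Dm3 ε J) :
    IsClosed (((GT ε J).subgroupOf (FG J) : Subgroup (FG J)) : Set (FG J)) :=
  Subgroup.isClosed_of_isOpen _ (isOpen_GT st htr hQ hF h3)

/-- **the same for the subgroups between `GT` and the isometries: closed in the matrices** -/
theorem isClosedEmbedding_of_GT_le (st : ∀ t : k, star (algebraMap k D t) = algebraMap k D t)
    (htr : ∀ x : D, ∃ t : k, x + star x = algebraMap k D t) (hQ : Qt D)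
    (hF : Frm ε J) (h3 : Dm3 ε J) {G : Subgroup (Matrix n n D)ˣ} (hG : GT ε J ≤ G)
    (hGF : G ≤ FG J) : IsClosedEmbedding fun g : G => g.1.1 := by
  have h1 : IsClosed ((G.subgroupOf (FG J) : Subgroup (FG J)) : Set (FG J)) := by
    refine Subgroup.isClosed_of_isOpen _ (Subgroup.isOpen_mono ?_ (isOpen_GT st htr hQ hF h3))
    intro g hg
    exact hG hg
  set ι : G → FG J := fun g => ⟨g.1, hGF g.2⟩ with hι
  have h2 : IsClosedEmbedding ι := by
    refine ⟨⟨?_, fun a b h => Subtype.ext (congrArg (fun x : FG J => x.1) h)⟩, ?_⟩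
    · refine IsInducing.of_comp (g := (Subtype.val : FG J → (Matrix n n D)ˣ)) ?_
        continuous_subtype_val IsInducing.subtypeVal
      exact continuous_subtype_val.subtype_mk _
    · have e : Set.range ι = ((G.subgroupOf (FG J) : Subgroup (FG J)) : Set (FG J)) := by
        ext g
        constructor
        · rintro ⟨s, rfl⟩
          exact s.2
        · intro hg
          exact ⟨⟨g.1, hg⟩, rfl⟩
      rw [e]
      exact h1
  exact (isClosedEmbedding_FG (k := k) st hF).comp h2

/-- **`GT` is closed in the matrices** -/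
theorem isClosedEmbedding_GT (st : ∀ t : k, star (algebraMap k D t) = algebraMap k D t)
    (htr : ∀ x : D, ∃ t : k, x + star x = algebraMap k D t) (hQ : Qt D)
    (hF : Frm ε J) (h3 : Dm3 ε J) : IsClosedEmbedding fun g : GT ε J => g.1.1 :=
  isClosedEmbedding_of_GT_le st htr hQ hF h3 le_rfl (GT_le hF)

end top

end Vale.Agent.P092.H866.QL
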