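import Vale.Agent.P092.H103.QH4
import Mathlib.Algebra.Algebra.Basic
import Mathlib.Algebra.Module.Submodule.Basic
import Mathlib.LinearAlgebra.Span.Basic

/-!
P092, block CLASS-H, DU6 (helper866), part 1: the Lie algebra of the isometries of an `ε`-hermitian
form over a quaternion division algebra is spanned by the transvections.
-/

set_option linter.all false

open Matrix

namespace Vale.Agent.P092.H866.QL

open Vale.Agent.P092.H103.QH

section basic

variable {n : Type*} [Fintype n] [DecidableEq n] {D : Type*} [DivisionRing D] [StarRing D]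
  {ε : D} {J : Matrix n n D}

/-- The matrix `x ↦ h(x, u) v`. -/
def R (J : Matrix n n D) (u v : n → D) : Matrix n n D := vecMulVec (J *ᵥ star u) v

theorem vecMul_R (x u v : n → D) : x ᵥ* R J u v = hf J x u • v := by
  unfold R hf
  rw [vecMul_vecMulVec]

theorem tvm_eq (u : n → D) (c : D) : tvm J u c = 1 + R J u (c • u) := rfl

theorem R_add_left (u u' v : n → D) : R J (u + u') v = R J u v + R J u' v := by
  refine ext_vm fun x => ?_
  rw [vecMul_add, vecMul_R, vecMul_R, vecMul_R, hf_add_right, add_smul]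

theorem R_add_right (u v v' : n → D) : R J u (v + v') = R J u v + R J u v' := by
  refine ext_vm fun x => ?_
  rw [vecMul_add, vecMul_R, vecMul_R, vecMul_R, smul_add]

theorem R_smul_left (a : D) (u v : n → D) : R J (a • u) v = R J u (star a • v) := by
  refine ext_vm fun x => ?_
  rw [vecMul_R, vecMul_R, hf_smul_right, smul_smul]

theorem R_neg_right (u v : n → D) : R J u (-v) = -R J u v := by
  refine ext_vm fun x => ?_
  rw [vecMul_neg, vecMul_R, vecMul_R, smul_neg]

theorem R_neg_left (u v : n → D) : R J (-u) v = -R J u v := by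
  refine ext_vm fun x => ?_
  rw [vecMul_neg, vecMul_R, vecMul_R, hf_neg_right, neg_smul]

/-- `R - R^*` -/
def Y (ε : D) (J : Matrix n n D) (u v : n → D) : Matrix n n D := R J u v - R J v (ε • u)

theorem Y_add_left (u u' v : n → D) : Y ε J (u + u') v = Y ε J u v + Y ε J u' v := by
  unfold Y
  rw [R_add_left, smul_add, R_add_right]
  abel

theorem Y_add_right (u v v' : n → D) : Y ε J u (v + v') = Y ε J u v + Y ε J u v' := by
  unfold Y
  rw [R_add_left, R_add_right]
  abel

theorem Y_neg_left (u v : n → D) : Y ε J (-u) v = -Y ε J u v := by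
  unfold Y
  rw [R_neg_left, smul_neg, R_neg_right]
  abel

theorem Y_neg_right (u v : n → D) : Y ε J u (-v) = -Y ε J u v := by
  unfold Y
  rw [R_neg_left, R_neg_right]
  abel

theorem Y_smul_left (he : ε = 1 ∨ ε = -1) (a : D) (u v : n → D) :
    Y ε J (a • u) v = Y ε J u (star a • v) := by
  unfold Y
  rw [R_smul_left, R_smul_left, star_star, smul_smul, smul_smul, eps_comm he a]

theorem Y_swap (he : ε = 1 ∨ ε = -1) (u v : n → D) : Y ε J u v = -Y ε J v (ε • u) := by
  unfold Y
  rw [R_smul_left, eps_star he, smul_smul, eps_sq he, one_smul]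
  abel

theorem Y_self (u : n → D) (a : D) : Y ε J u (a • u) = R J u ((a - star a * ε) • u) := by
  unfold Y
  rw [R_smul_left, smul_smul, sub_eq_add_neg, sub_eq_add_neg, add_smul, neg_smul, R_add_right,
    R_neg_right]

theorem cc_self (he : ε = 1 ∨ ε = -1) (a : D) : CC ε (a - star a * ε) := by
  unfold CC
  rw [star_sub, star_mul, star_star, eps_star he, mul_sub, ← mul_assoc, eps_sq he, one_mul,
    eps_comm he (star a)]
  abel

/-- the Lie algebra element of a transvection -/
def X (J : Matrix n n D) (u : n → D) (c : D) : Matrix n n D := R J u (c • u)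

theorem X_smul (u : n → D) (a c : D) : X J (a • u) c = X J u (star a * c * a) := by
  unfold X
  rw [R_smul_left, smul_smul, smul_smul]

theorem X_neg (u : n → D) (c : D) : X J (-u) c = X J u c := by
  unfold X
  rw [R_neg_left, smul_neg, R_neg_right, neg_neg]

theorem Y_cc (he : ε = 1 ∨ ε = -1) {c : D} (hc : CC ε c) (u v : n → D) :
    Y ε J u (c • v) = R J u (c • v) + R J v (c • u) := by
  unfold Y
  rw [R_smul_left, hc.star_eq he, smul_smul, neg_mul, neg_mul, mul_assoc, ← eps_comm he c,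
    ← mul_assoc, eps_sq he, one_mul, neg_smul, R_neg_right, sub_neg_eq_add]

theorem X_add (he : ε = 1 ∨ ε = -1) {c : D} (hc : CC ε c) (u v : n → D) :
    X J (u + v) c = X J u c + X J v c + Y ε J u (c • v) := by
  rw [Y_cc he hc]
  unfold X
  rw [smul_add, R_add_left, R_add_right, R_add_right]
  abel

end basic

section quat

variable {D : Type*} [DivisionRing D] [StarRing D] (hQ : Qt D)

include hQ

/-- a pure element anticommuting with a given one -/
theorem exists_anti {p : D} (hp : Pu p) (hp0 : p ≠ 0) :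
    ∃ b : D, Pu b ∧ b ≠ 0 ∧ p * b = -(b * p) := by
  obtain ⟨x, y, hx, hy, hxy⟩ := hQ.exists_pu
  obtain ⟨z, hz, hzp⟩ : ∃ z : D, Pu z ∧ p * z ≠ z * p := by
    by_contra hcon
    push Not at hcon
    have h1 := (hQ.cs_of_comm hx hy hxy (hcon x hx) (hcon y hy)).st
    rw [hp] at h1
    have h2 : (2 : D) * p = 0 := by
      rw [two_mul]
      nth_rewrite 1 [← h1]
      exact neg_add_cancel p
    exact (mul_ne_zero hQ.two hp0) h2
  refine ⟨p * z - z * p, hp.comm hz, sub_ne_zero.2 hzp, ?_⟩
  have h1 := (hp.sq hQ).cm z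
  rw [eq_neg_iff_add_eq_zero]
  have h2 : p * (p * z - z * p) + (p * z - z * p) * p = p * p * z - z * (p * p) := by
    noncomm_ring
  rw [h2, h1, sub_self]

omit hQ in
theorem anti_inv {p b : D} (hb0 : b ≠ 0) (h : p * b = -(b * p)) : b⁻¹ * p = -(p * b⁻¹) := by
  have h1 : b⁻¹ * (p * b) * b⁻¹ = b⁻¹ * -(b * p) * b⁻¹ := by rw [h]
  rw [← mul_assoc, mul_assoc (b⁻¹ * p), mul_inv_cancel₀ hb0, mul_one, mul_neg,
    inv_mul_cancel_left₀ hb0, neg_mul] at h1
  exact h1

omit hQ in
theorem pu_inv {b : D} (hb : Pu b) : Pu b⁻¹ := by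
  unfold Pu at *
  rw [star_inv₀, hb, inv_neg]

omit hQ in
theorem pu_quot {p b : D} (hp : Pu p) (hb : Pu b) (hb0 : b ≠ 0) (h : p * b = -(b * p)) :
    Pu (p * b⁻¹) := by
  have h1 := anti_inv hb0 h
  have h2 : star b⁻¹ = -b⁻¹ := pu_inv hb
  unfold Pu
  rw [star_mul, h2, hp, neg_mul_neg, h1]

omit hQ in
theorem pu_cs {s b : D} (hs : Cs s) (hb : Pu b) : Pu (s * b) := by
  unfold Pu
  rw [star_mul, hb, hs.st, neg_mul, hs.cm]

end quat


variable {n : Type*} [Fintype n] [DecidableEq n] {D : Type*} [DivisionRing D] [StarRing D]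
  {k : Type*} [Field k] [Algebra k D] {ε : D} {J : Matrix n n D}

/-- The hypotheses on the span. -/
structure Sp (ε : D) (J : Matrix n n D) (P : Submodule k (Matrix n n D)) (e f : n → D) : Prop where
  F : Frm ε J
  st : ∀ t : k, star (algebraMap k D t) = algebraMap k D t
  two : (2 : D) ≠ 0
  P : ∀ u c, hf J u u = 0 → CC ε c → X J u c ∈ P
  ee : hf J e e = 0
  ff : hf J f f = 0
  ef : hf J e f = 1

theorem vecMul_Y (x u v : n → D) :
    x ᵥ* Y ε J u v = hf J x u • v - (hf J x v * ε) • u := by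
  unfold Y
  rw [vecMul_sub, vecMul_R, vecMul_R, smul_smul]

theorem smul_Y (st : ∀ t : k, star (algebraMap k D t) = algebraMap k D t)
    (t : k) (u v : n → D) : t • Y ε J u v = Y ε J u (algebraMap k D t • v) := by
  refine ext_vm fun x => ?_
  rw [vecMul_smul, vecMul_Y, vecMul_Y, hf_smul_right, st, smul_sub, ← algebraMap_smul D t,
    ← algebraMap_smul D t, smul_smul, smul_smul, smul_smul, Algebra.commutes, Algebra.commutes,
    mul_assoc, mul_assoc, ← Algebra.commutes t ε]

namespace Sp

variable {P : Submodule k (Matrix n n D)} {e f : n → D} (h : Sp ε J P e f)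

include h

theorem two_k : (2 : k) ≠ 0 := by
  intro h2
  apply h.two
  have : algebraMap k D 2 = 2 := map_ofNat _ 2
  rw [← this, h2, map_zero]

theorem half {A : Matrix n n D} (hA : A + A ∈ P) : A ∈ P := by
  rw [← two_smul k] at hA
  exact (P.smul_mem_iff h.two_k).1 hA

theorem fe : hf J f e = ε := h.F.swap h.ef

theorem swap : Sp ε J P f (ε • e) where
  F := h.F
  st := h.st
  two := h.two
  P := h.P
  ee := h.ff
  ff := iso_smul h.ee ε
  ef := by rw [hf_smul_right, h.fe, eps_star h.F.eps, eps_sq h.F.eps]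

/-- the isotropic vectors -/
theorem iso_w {y : n → D} (hye : hf J y e = 0) (hyf : hf J y f = 0) {β : D}
    (hβ : hf J y y + star β + β * ε = 0) :
    hf J (e + (y + β • f)) (e + (y + β • f)) = 0 := by
  have hey := h.F.symm_zero hye
  have hfy := h.F.symm_zero hyf
  simp only [hf_add_left, hf_add_right, hf_smul_left, hf_smul_right, h.ee, h.ff, h.ef, h.fe, hye,
    hyf, hey, hfy, mul_zero, zero_mul, one_mul, add_zero, zero_add]
  rw [← hβ]
  abel

/-- (E1) -/
theorem e1 {y : n → D} (hye : hf J y e = 0) (hyf : hf J y f = 0) {β c : D}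
    (hβ : hf J y y + star β + β * ε = 0) (hc : CC ε c) :
    X J y c + Y ε J e ((c * β) • f) + (Y ε J e (c • y) + Y ε J y ((c * β) • f)) ∈ P := by
  have h1 := h.P _ c (h.iso_w hye hyf hβ) hc
  rw [X_add h.F.eps hc, X_add h.F.eps hc, smul_add, Y_add_right, smul_smul, X_smul] at h1
  have h2 := h.P e c h.ee hc
  have h3 := h.P f (star β * c * β) h.ff (hc.congr h.F.eps β)
  have h4 := P.sub_mem (P.sub_mem h1 h2) h3
  convert h4 using 1
  abel

theorem e1' {y : n → D} (hye : hf J y e = 0) (hyf : hf J y f = 0) {β c : D}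
    (hβ : hf J y y + star β + β * ε = 0) (hc : CC ε c) :
    X J y c + Y ε J e ((c * β) • f) - (Y ε J e (c • y) + Y ε J y ((c * β) • f)) ∈ P := by
  have h1 := h.e1 (y := -y) (by rw [hf_neg_left, hye, neg_zero])
    (by rw [hf_neg_left, hyf, neg_zero]) (β := β) (by rw [hf_neg_left, hf_neg_right, neg_neg]; exact hβ) hc
  rw [X_neg, smul_neg, Y_neg_right, Y_neg_left] at h1
  convert h1 using 1
  abel

theorem e2 {y : n → D} (hye : hf J y e = 0) (hyf : hf J y f = 0) {β c : D}
    (hβ : hf J y y + star β + β * ε = 0) (hc : CC ε c) :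
    X J y c + Y ε J e ((c * β) • f) ∈ P := by
  refine h.half ?_
  have := P.add_mem (h.e1 hye hyf hβ hc) (h.e1' hye hyf hβ hc)
  convert this using 1
  abel

theorem e3 {y : n → D} (hye : hf J y e = 0) (hyf : hf J y f = 0) {β c : D}
    (hβ : hf J y y + star β + β * ε = 0) (hc : CC ε c) :
    Y ε J e (c • y) + Y ε J y ((c * β) • f) ∈ P := by
  refine h.half ?_
  have := P.sub_mem (h.e1 hye hyf hβ hc) (h.e1' hye hyf hβ hc)
  convert this using 1
  abel

/-- (E5) -/
theorem e5 {r : k} (hr0 : r ≠ 0) (hr1 : r * r ≠ 1) {y : n → D} (hye : hf J y e = 0)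
    (hyf : hf J y f = 0) {c : D} (hc : CC ε c) : Y ε J e (c • y) ∈ P := by
  obtain ⟨β', hβ'⟩ := h.F.tv y
  set β : D := -star β' with hβd
  have hβ : hf J y y + star β + β * ε = 0 := by
    rw [hβ', hβd, star_neg, star_star, neg_mul, ← eps_comm h.F.eps (star β')]
    abel
  have h1 := h.e3 hye hyf hβ hc
  set t : D := algebraMap k D r with ht
  have hts : star t = t := h.st r
  have htc : ∀ x : D, t * x = x * t := fun x => Algebra.commutes r x
  have h2 := h.e3 (y := t • y) (by rw [hf_smul_left, hye, mul_zero])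
    (by rw [hf_smul_left, hyf, mul_zero]) (β := t * t * β) (c := c) (by
      have k1 : hf J (t • y) (t • y) = t * (t * hf J y y) := by
        rw [hf_smul_left, hf_smul_right, hts, ← htc]
      have k2 : star (t * t * β) = t * (t * star β) := by
        rw [star_mul, star_mul, hts, ← mul_assoc, ← htc (star β), mul_assoc, ← htc (star β)]
      have k3 : t * t * β * ε = t * (t * (β * ε)) := by simp only [mul_assoc]
      rw [k1, k2, k3, ← mul_add, ← mul_add, ← mul_add, ← mul_add, hβ, mul_zero, mul_zero]) hc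
  have e1 : Y ε J e (c • t • y) = r • Y ε J e (c • y) := by
    rw [smul_Y h.st, ← ht, smul_smul, smul_smul, htc]
  have e2 : Y ε J (t • y) ((c * (t * t * β)) • f) =
      (r * r * r) • Y ε J y ((c * β) • f) := by
    have k4 : c * (t * t * β) = t * (t * (c * β)) := by
      rw [mul_assoc t t β, ← mul_assoc c t, ← htc c, mul_assoc t c, ← mul_assoc c t β, ← htc c,
        mul_assoc t c]
    rw [Y_smul_left h.F.eps, hts, smul_Y h.st, smul_smul, smul_smul, map_mul, map_mul, ← ht, k4,
      mul_assoc, mul_assoc]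
  rw [e1, e2] at h2
  have h3 := P.sub_mem h2 (P.smul_mem r h1)
  have e3 : r • Y ε J e (c • y) + (r * r * r) • Y ε J y ((c * β) • f) -
      r • (Y ε J e (c • y) + Y ε J y ((c * β) • f)) =
      (r * (r * r - 1)) • Y ε J y ((c * β) • f) := by
    rw [smul_add, mul_sub, sub_smul, mul_one, ← mul_assoc]
    abel
  rw [e3] at h3
  have h4 : Y ε J y ((c * β) • f) ∈ P :=
    (P.smul_mem_iff (mul_ne_zero hr0 (sub_ne_zero.2 hr1))).1 h3
  have h5 := P.sub_mem h1 h4
  rwa [add_sub_cancel_right] at h5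

/-- (E6) -/
theorem e6 {r : k} (hr0 : r ≠ 0) (hr1 : r * r ≠ 1) {y : n → D} (hye : hf J y e = 0)
    (hyf : hf J y f = 0) : Y ε J e y ∈ P := by
  obtain ⟨c, hc0, hc⟩ := h.F.cc
  have h1 := h.e5 hr0 hr1 (y := c⁻¹ • y) (by rw [hf_smul_left, hye, mul_zero])
    (by rw [hf_smul_left, hyf, mul_zero]) hc
  rwa [smul_smul, mul_inv_cancel₀ hc0, one_smul] at h1

/-- (E4) -/
theorem e4 {c b : D} (hc : CC ε c) (hb : CC ε b) : Y ε J e ((c * b) • f) ∈ P := by
  have h1 := h.e2 (y := 0) (hf_zero_left J e) (hf_zero_left J f) (β := b) (c := c) (by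
    rw [hf_zero_left, zero_add, hb.star_eq h.F.eps, neg_mul, eps_comm h.F.eps, neg_add_cancel]) hc
  have e1 : X J 0 c = 0 := by
    have := X_smul (J := J) 0 (0 : D) c
    rw [smul_zero, mul_zero] at this
    rw [this]
    refine ext_vm fun x => ?_
    rw [X, vecMul_R, zero_smul, smul_zero, vecMul_zero]
  rwa [e1, zero_add] at h1

/-- (E7) -/
theorem e7 {y : n → D} (hye : hf J y e = 0) (hyf : hf J y f = 0) {β c : D}
    (hβ : hf J y y + star β + β * ε = 0) (hc : CC ε c) (a : D) :
    Y ε J e ((c * (a * β * star a) - star a * c * a * β) • f) ∈ P := by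
  have h1 := h.e2 (y := a • y) (by rw [hf_smul_left, hye, mul_zero])
    (by rw [hf_smul_left, hyf, mul_zero]) (β := a * β * star a) (c := c) (by
      have e1 : hf J (a • y) (a • y) + star (a * β * star a) + a * β * star a * ε =
          a * (hf J y y + star β + β * ε) * star a := by
        rw [hf_smul_left, hf_smul_right, star_mul, star_mul, star_star, mul_assoc _ (star a) ε,
          ← eps_comm h.F.eps (star a)]
        noncomm_ring
      rw [e1, hβ, mul_zero, zero_mul]) hc
  have h2 := h.e2 hye hyf hβ (hc.congr h.F.eps a)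
  rw [X_smul] at h1
  have h3 := P.sub_mem h1 h2
  rw [sub_smul, sub_eq_add_neg ((c * (a * β * star a)) • f), Y_add_right, Y_neg_right]
  convert h3 using 1
  abel

theorem cs_k (htr : ∀ x : D, ∃ t : k, x + star x = algebraMap k D t) {s : D} (hs : Cs s) :
    ∃ t : k, s = algebraMap k D t := by
  obtain ⟨t, ht⟩ := htr s
  rw [hs.st, ← two_mul] at ht
  refine ⟨2⁻¹ * t, ?_⟩
  have h1 : algebraMap k D 2⁻¹ = (2 : D)⁻¹ := by
    rw [map_inv₀, map_ofNat]
  rw [map_mul, ← ht, h1, inv_mul_cancel_left₀ h.two]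

/-- the coefficients -/
def M (ε : D) (J : Matrix n n D) (P : Submodule k (Matrix n n D)) (e f : n → D) (a : D) : Prop :=
  Y ε J e (a • f) ∈ P

omit h in
theorem M_add {a b : D} (ha : M ε J P e f a) (hb : M ε J P e f b) : M ε J P e f (a + b) := by
  unfold M at *
  rw [add_smul, Y_add_right]
  exact P.add_mem ha hb

omit h in
theorem M_neg {a : D} (ha : M ε J P e f a) : M ε J P e f (-a) := by
  unfold M at *
  rw [neg_smul, Y_neg_right]
  exact P.neg_mem ha

omit h in
theorem M_sub {a b : D} (ha : M ε J P e f a) (hb : M ε J P e f b) : M ε J P e f (a - b) := by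
  rw [sub_eq_add_neg]
  exact M_add ha (M_neg hb)

theorem M_cs (htr : ∀ x : D, ∃ t : k, x + star x = algebraMap k D t) {s a : D} (hs : Cs s)
    (ha : M ε J P e f a) : M ε J P e f (s * a) := by
  obtain ⟨t, rfl⟩ := h.cs_k htr hs
  unfold M at *
  rw [← smul_smul, ← smul_Y h.st]
  exact P.smul_mem t ha

theorem M_cs' (htr : ∀ x : D, ∃ t : k, x + star x = algebraMap k D t) {s a : D} (hs : Cs s)
    (hs0 : s ≠ 0) (ha : M ε J P e f (s * a)) : M ε J P e f a := by
  have := h.M_cs htr hs.inv ha
  rwa [inv_mul_cancel_left₀ hs0] at this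

/-- all the coefficients -/
theorem M_all (hQ : Qt D) (htr : ∀ x : D, ∃ t : k, x + star x = algebraMap k D t)
    (hy : ε = -1 → ∃ y, hf J y e = 0 ∧ hf J y f = 0 ∧ hf J y y ≠ 0) (a : D) :
    M ε J P e f a := by
  obtain ⟨s, p, hs, hp, rfl⟩ := hQ.dec a
  rcases h.F.eps with he | he
  · -- `ε = 1`
    subst he
    have key : ∀ c b : D, Pu c → Pu b → M (1 : D) J P e f (c * b) := fun c b hc hb =>
      h.e4 hc.cc hb.cc
    refine M_add ?_ ?_
    · obtain ⟨x, y, hx, hy, hxy⟩ := hQ.exists_pu
      have hx0 : x ≠ 0 := by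
        rintro rfl
        exact hxy (by rw [zero_mul, mul_zero])
      have := key (s * x⁻¹) x (pu_cs hs (pu_inv hx)) hx
      rwa [mul_assoc, inv_mul_cancel₀ hx0, mul_one] at this
    · by_cases hp0 : p = 0
      · rw [hp0]
        show Y (1 : D) J e ((0 : D) • f) ∈ P
        have := key 0 0 (by unfold Pu; rw [star_zero, neg_zero]) (by unfold Pu; rw [star_zero, neg_zero])
        rwa [mul_zero] at this
      · obtain ⟨b, hb, hb0, hpb⟩ := exists_anti hQ hp hp0
        have := key (p * b⁻¹) b (pu_quot hp hb hb0 hpb) hb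
        rwa [mul_assoc, inv_mul_cancel₀ hb0, mul_one] at this
  · -- `ε = -1`
    subst he
    have hcs : ∀ s : D, Cs s → CC (-1 : D) s := fun s hs => by
      unfold CC
      rw [hs.st, neg_one_mul, add_neg_cancel]
    have hM1 : ∀ s : D, Cs s → M (-1 : D) J P e f s := fun s hs => by
      have := h.e4 (hcs s hs) (hcs 1 Cs.one)
      rwa [mul_one] at this
    refine M_add (hM1 s hs) ?_
    obtain ⟨y, hye, hyf, hyy⟩ := hy rfl
    set m : D := hf J y y with hm
    have hmp : Pu m := by
      have := h.F.herm y y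
      rw [← hm, neg_one_mul] at this
      unfold Pu
      rw [eq_neg_iff_add_eq_zero, add_comm, ← eq_neg_iff_add_eq_zero]
      exact this
    set b : D := 2⁻¹ * m with hb
    have hbp : Pu b := pu_cs Cs.two'.inv hmp
    have hb2 : b + b = m := by rw [hb, ← two_mul, mul_inv_cancel_left₀ hQ.two]
    have hb0 : b ≠ 0 := mul_ne_zero (inv_ne_zero hQ.two) hyy
    have hβ : hf J y y + star b + b * -1 = 0 := by
      rw [← hm, ← hb2, hbp, mul_neg_one]
      abel
    have key : ∀ a : D, M (-1 : D) J P e f (a * b * star a - star a * a * b) := fun a => by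
      have := h.e7 hye hyf hβ (hcs 1 Cs.one) a
      rwa [one_mul, mul_one] at this
    -- anticommuting elements
    have key2 : ∀ q : D, Pu q → q ≠ 0 → q * b = -(b * q) →
        M (-1 : D) J P e f b ∧ M (-1 : D) J P e f (q * b) := by
      intro q hq hq0 hqb
      have hqq := hq.sq hQ
      have hbq : b * q = -(q * b) := by rw [hqb, neg_neg]
      have e1 : q * b * star q = (q * q) * b := by
        rw [hq, mul_neg, mul_assoc, hbq, mul_neg, neg_neg, mul_assoc]
      have h1 : M (-1 : D) J P e f b := by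
        have h2 := key q
        rw [e1, hq] at h2
        have e2 : q * q * b - -q * q * b = (q * q) * (2 * b) := by noncomm_ring
        rw [e2] at h2
        exact h.M_cs' htr Cs.two' hQ.two (h.M_cs' htr hqq (mul_ne_zero hq0 hq0) h2)
      refine ⟨h1, ?_⟩
      have h2 := key (1 + q)
      have e2 : (1 + q) * b * star (1 + q) - star (1 + q) * (1 + q) * b =
          2 * (q * b) + (q * q) * (2 * b) := by
        have e3 : (1 + q) * b * star (1 + q) = b + q * b + (b * star q + q * b * star q) := by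
          rw [star_add, star_one]
          noncomm_ring
        rw [e3, e1, star_add, star_one, hq, mul_neg, hbq]
        noncomm_ring
      rw [e2] at h2
      have h3 := h.M_cs htr hqq (h.M_cs htr Cs.two' h1)
      have h4 := M_sub h2 h3
      rw [add_sub_cancel_right] at h4
      exact h.M_cs' htr Cs.two' hQ.two h4
    -- `b` itself
    have hMb : M (-1 : D) J P e f b := by
      obtain ⟨q, hq, hq0, hqb⟩ := exists_anti hQ hbp hb0
      exact (key2 q hq hq0 (by rw [hqb, neg_neg])).1
    -- the general pure element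
    have hbb := hbp.sq hQ
    have hbb0 : b * b ≠ 0 := mul_ne_zero hb0 hb0
    set t : D := (p * b + b * p) * (2 * (b * b))⁻¹ with ht
    have htc : Cs t := (Pu.anti hQ hp hbp).mul (Cs.two'.mul hbb).inv
    set p' : D := p - t * b with hp'
    have hp'p : Pu p' := by
      have h1 : star (t * b) = -(t * b) := pu_cs htc hbp
      unfold Pu
      rw [hp', star_sub, hp, h1]
      abel
    have hanti : p' * b = -(b * p') := by
      rw [eq_neg_iff_add_eq_zero]
      have e1 : p' * b + b * p' = (p * b + b * p) - (t * (b * b) + b * t * b) := by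
        rw [hp']; noncomm_ring
      have e2 : b * t * b = t * (b * b) := by rw [← htc.cm, mul_assoc]
      have e4 : t * (b * b) + t * (b * b) = t * (2 * (b * b)) := by rw [two_mul, mul_add]
      rw [e1, e2, e4, ht, inv_mul_cancel_right₀ (mul_ne_zero hQ.two hbb0), sub_self]
    have hp2 : p = p' + t * b := by rw [hp', sub_add_cancel]
    rw [hp2]
    refine M_add ?_ (h.M_cs htr htc hMb)
    by_cases hp0 : p' = 0
    · rw [hp0]
      exact hM1 0 (by have := Cs.one (D := D); have := this.sub this; rwa [sub_self] at this)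
    · have h1 := (key2 (p' * b⁻¹) (pu_quot hp'p hbp hb0 hanti)
        (mul_ne_zero hp0 (inv_ne_zero hb0)) (by
          rw [mul_assoc, inv_mul_cancel₀ hb0, mul_one, ← mul_assoc, ← neg_mul, ← hanti,
            mul_assoc, mul_inv_cancel₀ hb0, mul_one])).2
      rwa [mul_assoc, inv_mul_cancel₀ hb0, mul_one] at h1

/-- a value of `β` -/
theorem exists_beta (y : n → D) : ∃ β : D, hf J y y + star β + β * ε = 0 := by
  obtain ⟨β', hβ'⟩ := h.F.tv y
  refine ⟨-star β', ?_⟩
  rw [hβ', star_neg, star_star, neg_mul, ← eps_comm h.F.eps (star β')]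
  abel

/-- (E9) -/
theorem e9 (hM : ∀ a, M ε J P e f a) {y z : n → D} (hye : hf J y e = 0)
    (hyf : hf J y f = 0) (hze : hf J z e = 0) (hzf : hf J z f = 0) : Y ε J y z ∈ P := by
  have hX : ∀ y : n → D, hf J y e = 0 → hf J y f = 0 → ∀ c, CC ε c → X J y c ∈ P := by
    intro y hye hyf c hc
    obtain ⟨β, hβ⟩ := h.exists_beta y
    have h1 := h.e2 hye hyf hβ hc
    have h2 := P.sub_mem h1 (hM (c * β))
    rwa [add_sub_cancel_right] at h2
  obtain ⟨c, hc0, hc⟩ := h.F.cc
  have h1 : Y ε J y (c • c⁻¹ • z) ∈ P := by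
    have e1 : hf J (c⁻¹ • z) e = 0 := by rw [hf_smul_left, hze, mul_zero]
    have e2 : hf J (c⁻¹ • z) f = 0 := by rw [hf_smul_left, hzf, mul_zero]
    have h2 := hX (y + c⁻¹ • z) (by rw [hf_add_left, hye, e1, add_zero])
      (by rw [hf_add_left, hyf, e2, add_zero]) c hc
    rw [X_add h.F.eps hc] at h2
    have h3 := P.sub_mem h2 (P.add_mem (hX y hye hyf c hc) (hX _ e1 e2 c hc))
    rwa [add_sub_cancel_left] at h3
  rwa [smul_smul, mul_inv_cancel₀ hc0, one_smul] at h1

/-- the decomposition of a vector -/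
theorem dec (v : n → D) : ∃ (α β : D) (y : n → D), hf J y e = 0 ∧ hf J y f = 0 ∧
    v = α • e + β • f + y := by
  refine ⟨hf J v f, hf J v e * ε, v - hf J v f • e - (hf J v e * ε) • f, ?_, ?_, ?_⟩
  · rw [hf_sub_left, hf_sub_left, hf_smul_left, hf_smul_left, h.ee, h.fe, mul_assoc,
      eps_sq h.F.eps]
    simp
  · rw [hf_sub_left, hf_sub_left, hf_smul_left, hf_smul_left, h.ef, h.ff]
    simp
  · abel

theorem e_all {r : k} (hr0 : r ≠ 0) (hr1 : r * r ≠ 1) (hM : ∀ a, M ε J P e f a) (v : n → D) :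
    Y ε J e v ∈ P := by
  obtain ⟨α, β, y, hye, hyf, rfl⟩ := h.dec v
  rw [Y_add_right, Y_add_right, Y_self]
  exact P.add_mem (P.add_mem (h.P e _ h.ee (cc_self h.F.eps α)) (hM β)) (h.e6 hr0 hr1 hye hyf)

/-- **The Lie algebra is spanned by the transvections.** -/
theorem Y_mem (hQ : Qt D) (htr : ∀ x : D, ∃ t : k, x + star x = algebraMap k D t)
    (hy : ε = -1 → ∃ y, hf J y e = 0 ∧ hf J y f = 0 ∧ hf J y y ≠ 0)
    {r : k} (hr0 : r ≠ 0) (hr1 : r * r ≠ 1) (u v : n → D) : Y ε J u v ∈ P := by
  have hM := h.M_all hQ htr hy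
  have hM' := h.swap.M_all hQ htr (fun he => by
    obtain ⟨y, h1, h2, h3⟩ := hy he
    exact ⟨y, h2, by rw [hf_smul_right, h1, zero_mul], h3⟩)
  have he := h.e_all hr0 hr1 hM
  have hf := h.swap.e_all hr0 hr1 hM'
  have ha : ∀ (a : D) (v : n → D), Y ε J (a • e) v ∈ P := fun a v => by
    rw [Y_smul_left h.F.eps]
    exact he _
  have hb : ∀ (a : D) (v : n → D), Y ε J (a • f) v ∈ P := fun a v => by
    rw [Y_smul_left h.F.eps]
    exact hf _
  obtain ⟨α, β, y, hye, hyf, rfl⟩ := h.dec u
  rw [Y_add_left, Y_add_left]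
  refine P.add_mem (P.add_mem (ha _ _) (hb _ _)) ?_
  obtain ⟨α', β', z, hze, hzf, rfl⟩ := h.dec v
  rw [Y_add_right, Y_add_right, Y_swap h.F.eps y (α' • e), Y_swap h.F.eps y (β' • f)]
  exact P.add_mem (P.add_mem (P.neg_mem (ha _ _)) (P.neg_mem (hb _ _)))
    (h.e9 hM hye hyf hze hzf)

end Sp

end Vale.Agent.P092.H866.QL
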