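import Vale.Agent.P092.H866.DH.L1
import Vale.Agent.P092.H465.DA5

/-!
P092, block CLASS-H, DU6 (helper866), part 2: the group generated by the transvections of an
`ε`-hermitian form over a quaternion division algebra is open in the group of the isometries and
closed in the matrices.
-/

set_option linter.all false

open Matrix Topology Filter

namespace Vale.Agent.P092.H866.QL

open Vale.Agent.P092.H103.QH

section adj

variable {n : Type*} [Fintype n] [DecidableEq n] {D : Type*} [DivisionRing D] [StarRing D]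
  {ε : D} {J : Matrix n n D}

theorem exists_inv (hF : Frm ε J) : ∃ K : Matrix n n D, J * K = 1 ∧ K * J = 1 := by
  have hinj : Function.Injective (Matrix.vecMulLinear J) := by
    rw [injective_iff_map_eq_zero]
    intro x hx
    by_contra h0
    obtain ⟨y, hy⟩ := hF.nondeg x h0
    apply hy
    have h1 : x ᵥ* J = 0 := hx
    unfold hf
    rw [dotProduct_mulVec, h1, zero_dotProduct]
  have hsurj : Function.Surjective (Matrix.vecMulLinear J) :=
    LinearMap.injective_iff_surjective.1 hinj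
  choose g hg using hsurj
  have hg' : ∀ x, g x ᵥ* J = x := hg
  have e1 : (Matrix.of fun i => g (Pi.single i 1)) * J = 1 := by
    refine ext_vm fun x => ?_
    rw [vecMul_one, ← vecMul_vecMul]
    have h2 : x ᵥ* (Matrix.of fun i => g (Pi.single i 1)) = ∑ i, x i • g (Pi.single i 1) := by
      funext j
      simp [vecMul, dotProduct]
    have h3 : (∑ i, x i • g (Pi.single i 1)) ᵥ* J = ∑ i, x i • Pi.single i (1 : D) := by
      have h4 : (Matrix.vecMulLinear J) (∑ i, x i • g (Pi.single i 1)) =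
          ∑ i, x i • Pi.single i (1 : D) := by
        rw [map_sum]
        refine Finset.sum_congr rfl fun i _ => ?_
        rw [map_smul, hg]
      exact h4
    rw [h2, h3]
    funext j
    simp [Finset.sum_apply, Pi.single_apply]
  refine ⟨_, ?_, e1⟩
  refine ext_vm fun x => hinj ?_
  show (x ᵥ* _) ᵥ* J = (x ᵥ* 1) ᵥ* J
  rw [vecMul_vecMul, Matrix.mul_assoc, e1, Matrix.mul_one, vecMul_one]

/-- the adjoint -/
def adj (J K A : Matrix n n D) : Matrix n n D := (K * A * J)ᴴ

variable {K : Matrix n n D}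

theorem hf_adj (hK : J * K = 1) (A : Matrix n n D) (x y : n → D) :
    hf J (x ᵥ* A) y = hf J x (y ᵥ* adj J K A) := by
  unfold hf adj
  rw [star_vecMul, conjTranspose_conjTranspose, mulVec_mulVec, ← dotProduct_mulVec, mulVec_mulVec,
    ← Matrix.mul_assoc, ← Matrix.mul_assoc, hK, Matrix.one_mul]

theorem ext_hf (hF : Frm ε J) {A B : Matrix n n D}
    (h : ∀ x y, hf J x (y ᵥ* A) = hf J x (y ᵥ* B)) : A = B := by
  refine ext_vm fun y => ?_
  by_contra hne
  obtain ⟨x, hx⟩ := hF.nondeg _ (sub_ne_zero.2 hne)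
  apply hF.symm_ne hx
  rw [sub_eq_add_neg, hf_add_right, hf_neg_right, h x y, add_neg_cancel]

theorem adj_add (A B : Matrix n n D) : adj J K (A + B) = adj J K A + adj J K B := by
  unfold adj
  rw [Matrix.mul_add, Matrix.add_mul, conjTranspose_add]

theorem adj_neg (A : Matrix n n D) : adj J K (-A) = -adj J K A := by
  unfold adj
  rw [Matrix.mul_neg, Matrix.neg_mul, conjTranspose_neg]

theorem adj_mul (hF : Frm ε J) (hK : J * K = 1) (A B : Matrix n n D) :
    adj J K (A * B) = adj J K B * adj J K A := by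
  refine ext_hf hF fun x y => ?_
  rw [← hf_adj hK, ← vecMul_vecMul, hf_adj hK, hf_adj hK, vecMul_vecMul]

theorem adj_one (hF : Frm ε J) (hK : J * K = 1) : adj J K 1 = 1 := by
  refine ext_hf hF fun x y => ?_
  rw [← hf_adj hK, vecMul_one, vecMul_one]

theorem adj_adj (hF : Frm ε J) (hK : J * K = 1) (A : Matrix n n D) :
    adj J K (adj J K A) = A := by
  refine ext_hf hF fun x y => ?_
  rw [← hf_adj hK, hF.herm y, ← hf_adj hK, ← hF.herm]

theorem adj_R (hF : Frm ε J) (hK : J * K = 1) (u v : n → D) :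
    adj J K (R J u v) = R J v (ε • u) := by
  refine ext_hf hF fun x y => ?_
  rw [← hf_adj hK, vecMul_R, vecMul_R, hf_smul_left, smul_smul, hf_smul_right, star_mul,
    eps_star hF.eps, ← hF.herm]

/-- the isometries -/
theorem mem_FG_adj (hF : Frm ε J) (hK : J * K = 1) {g : (Matrix n n D)ˣ} :
    g ∈ FG J ↔ g.1 * adj J K g.1 = 1 := by
  rw [mem_FG]
  constructor
  · intro h
    refine ext_hf hF fun x y => ?_
    rw [← vecMul_vecMul, ← hf_adj hK, h, vecMul_one]
  · intro h x y
    rw [hf_adj hK, vecMul_vecMul, h, vecMul_one]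

theorem sum_R (hK : J * K = 1) (A : Matrix n n D) :
    A = ∑ i, R J (star (K *ᵥ Pi.single i 1)) (A i) := by
  refine ext_vm fun x => ?_
  have h1 : ∀ i, R J (star (K *ᵥ Pi.single i 1)) (A i) = vecMulVec (Pi.single i 1) (A i) := by
    intro i
    unfold R
    rw [star_star, mulVec_mulVec, hK, one_mulVec]
  simp only [h1]
  funext j
  simp [vecMul, dotProduct, Matrix.sum_apply, vecMulVec_apply, Pi.single_apply, Finset.mul_sum,
    Finset.sum_apply]

variable {k : Type*} [Field k] [Algebra k D]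

/-- skew matrices are in the span -/
theorem skew_mem {P : Submodule k (Matrix n n D)} (hF : Frm ε J) (hK : J * K = 1)
    (h : ∀ u v, Y ε J u v ∈ P) (A : Matrix n n D) : A - adj J K A ∈ P := by
  have h1 : A - adj J K A = ∑ i, Y ε J (star (K *ᵥ Pi.single i 1)) (A i) := by
    have h2 : ∀ s : Finset n, adj J K (∑ i ∈ s, R J (star (K *ᵥ Pi.single i 1)) (A i)) =
        ∑ i ∈ s, R J (A i) (ε • star (K *ᵥ Pi.single i 1)) := by
      intro s
      induction s using Finset.induction_on with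
      | empty =>
        have := adj_neg (J := J) (K := K) (0 : Matrix n n D)
        rw [Finset.sum_empty, Finset.sum_empty]
        unfold adj
        simp
      | insert a s ha ih =>
        rw [Finset.sum_insert ha, Finset.sum_insert ha, adj_add, ih, adj_R hF hK]
    conv_lhs => rw [sum_R hK A]
    rw [h2]
    simp only [Y]
    rw [Finset.sum_sub_distrib]
  rw [h1]
  exact P.sum_mem fun i _ => h _ _

end adj

section ift

variable {k : Type*} [NontriviallyNormedField k] {𝔸 : Type*} [NormedRing 𝔸] [NormedAlgebra k 𝔸]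
  {W : Type*} [NormedAddCommGroup W] [NormedSpace k W]

/-- the map `(x, t) ↦ ∏ (1 + x_i b_i) (1 + φ t)` -/
noncomputable def PF {r : ℕ} (b : Fin r → 𝔸) (φ : W →L[k] 𝔸) (z : (Fin r → k) × W) : 𝔸 :=
  ((List.finRange r).map (fun i => 1 + z.1 i • b i)).prod * (1 + φ z.2)

theorem PF_zero {r : ℕ} (b : Fin r → 𝔸) (φ : W →L[k] 𝔸) : PF (k := k) b φ 0 = 1 := by
  simp [PF]

theorem hasDeriv_PF {r : ℕ} (b : Fin r → 𝔸) (φ : W →L[k] 𝔸) :
    ∃ F' : ((Fin r → k) × W) →L[k] 𝔸, HasStrictFDerivAt (PF b φ) F' 0 ∧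
      ∀ z, F' z = ∑ i, z.1 i • b i + φ z.2 := by
  have e0 : (fun i => (1 : 𝔸) + (0 : (Fin r → k) × W).1 i • b i) = fun _ => 1 := by
    funext i; simp
  have h1 := hasStrictFDerivAt_list_prod_finRange' (𝕜 := k) (x := fun _ : Fin r => (1 : 𝔸))
  have h2 : HasStrictFDerivAt (fun z : (Fin r → k) × W => fun i => (1 : 𝔸) + z.1 i • b i)
      (ContinuousLinearMap.pi fun i => (((ContinuousLinearMap.proj (R := k) (φ := fun _ : Fin r => k) i).comp
        (ContinuousLinearMap.fst k (Fin r → k) W)).smulRight (b i))) 0 := by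
    rw [hasStrictFDerivAt_pi]
    intro i
    have h3 : HasStrictFDerivAt (fun z : (Fin r → k) × W => z.1 i)
        ((ContinuousLinearMap.proj (R := k) (φ := fun _ : Fin r => k) i).comp
          (ContinuousLinearMap.fst k (Fin r → k) W)) 0 :=
      ((ContinuousLinearMap.proj (R := k) (φ := fun _ : Fin r => k) i).comp
          (ContinuousLinearMap.fst k (Fin r → k) W)).hasStrictFDerivAt
    exact (h3.smul_const (b i)).const_add 1
  rw [← e0] at h1
  have h4 := h1.comp 0 h2
  have h5 : HasStrictFDerivAt (fun z : (Fin r → k) × W => (1 : 𝔸) + φ z.2)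
      (φ.comp (ContinuousLinearMap.snd k (Fin r → k) W)) 0 := by
    have h6 : HasStrictFDerivAt (fun z : (Fin r → k) × W => φ z.2)
        (φ.comp (ContinuousLinearMap.snd k (Fin r → k) W)) 0 :=
      (φ.comp (ContinuousLinearMap.snd k (Fin r → k) W)).hasStrictFDerivAt
    exact h6.const_add 1
  have h6 := h4.mul' h5
  refine ⟨_, h6, fun z => ?_⟩
  have e1 : ∀ l : List (Fin r), (l.map fun i => (1 : 𝔸) + (0 : (Fin r → k) × W).1 i • b i).prod = 1 := by
    intro l
    rw [e0]
    simp
  simp only [_root_.add_apply, _root_.smul_apply, ContinuousLinearMap.comp_apply, e1]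
  have e2 : (1 : 𝔸) + φ (0 : (Fin r → k) × W).2 = 1 := by simp
  rw [e2]
  simp only [ContinuousLinearMap.sum_apply, _root_.smul_apply, MulOpposite.op_one, one_smul]
  rw [add_comm]
  congr 1

/-- the inverse function theorem for `PF` -/
theorem exists_PF [CompleteSpace k] [CompleteSpace 𝔸] [CompleteSpace W] {r : ℕ} (b : Fin r → 𝔸)
    (φ : W →L[k] 𝔸)
    (h : ∀ M : 𝔸, ∃ (x : Fin r → k) (t : W), M = ∑ i, x i • b i + φ t)
    {U : Set W} (hU : U ∈ 𝓝 0) :
    ∀ᶠ M : 𝔸 in 𝓝 1, ∃ z : (Fin r → k) × W, z.2 ∈ U ∧ M = PF b φ z := by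
  obtain ⟨F', h1, h2⟩ := hasDeriv_PF (k := k) b φ
  have h3 : F'.range = ⊤ := by
    rw [LinearMap.range_eq_top]
    intro M
    obtain ⟨x, t, hM⟩ := h M
    refine ⟨(x, t), ?_⟩
    rw [hM]
    exact h2 (x, t)
  have h4 := h1.map_nhds_eq_of_surj h3
  rw [PF_zero] at h4
  rw [← h4]
  have h5 : ∀ᶠ z : (Fin r → k) × W in 𝓝 0, z.2 ∈ U := by
    have : Tendsto (fun z : (Fin r → k) × W => z.2) (𝓝 0) (𝓝 0) := continuous_snd.tendsto' _ _ rfl
    exact this hU
  rw [Filter.eventually_map]
  exact h5.mono fun z hz => ⟨z, hz, rfl⟩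

/-- the same in an algebra isomorphic to a complete normed algebra -/
theorem near_alg [CompleteSpace k] [CompleteSpace 𝔸] {A : Type*} [Ring A] [Algebra k A]
    [TopologicalSpace A] (e : A ≃ₐ[k] 𝔸) (he : Continuous e) {r s : ℕ} (a : Fin r → A)
    (ψ : (Fin s → k) →ₗ[k] A)
    (h : ∀ M : A, ∃ (x : Fin r → k) (t : Fin s → k), M = ∑ i, x i • a i + ψ t)
    {U : Set (Fin s → k)} (hU : U ∈ 𝓝 0) :
    ∀ᶠ M : A in 𝓝 1, ∃ z : (Fin r → k) × (Fin s → k), z.2 ∈ U ∧
      M = ((List.finRange r).map (fun i => 1 + z.1 i • a i)).prod * (1 + ψ z.2) := by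
  set φ : (Fin s → k) →L[k] 𝔸 := LinearMap.toContinuousLinearMap (e.toLinearMap.comp ψ) with hφ
  have hφ1 : ∀ t, φ t = e (ψ t) := fun t => rfl
  have h1 : ∀ M : 𝔸, ∃ (x : Fin r → k) (t : Fin s → k), M = ∑ i, x i • e (a i) + φ t := by
    intro M
    obtain ⟨M, rfl⟩ := e.surjective M
    obtain ⟨x, t, hx⟩ := h M
    refine ⟨x, t, ?_⟩
    rw [hx, map_add, map_sum, hφ1]
    simp only [map_smul]
  have h2 := exists_PF (k := k) (fun i => e (a i)) φ h1 hU
  have h3 : Tendsto e (𝓝 1) (𝓝 1) := by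
    have := he.tendsto 1
    rwa [map_one] at this
  refine (h3.eventually h2).mono fun M hM => ?_
  obtain ⟨z, hz, hM⟩ := hM
  refine ⟨z, hz, ?_⟩
  apply e.injective
  rw [hM, map_mul, map_list_prod, List.map_map, PF, map_add, map_one, hφ1]
  congr 3
  funext i
  simp only [Function.comp_apply, map_add, map_one, map_smul]

end ift

end Vale.Agent.P092.H866.QL
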